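import Vale.Agent.P262.MathlibUsed

open scoped ENNReal BigOperators

namespace Vale.Agent.P262

/-- The sum of the first `k` vectors of the finite family `v`. -/
noncomputable def partialSum {d N : ℕ} (v : Fin N → EuclideanSpace ℝ (Fin d)) (k : ℕ) :
    EuclideanSpace ℝ (Fin d) :=
  ∑ i : Fin N with i.val < k, v i

/-- `beta v` is the minimum over all orderings of the family `v` of the maximal Euclidean norm
of a partial sum (`0 ≤ k ≤ N`). -/
noncomputable def beta {d N : ℕ} (v : Fin N → EuclideanSpace ℝ (Fin d)) : ℝ≥0∞ :=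
  ⨅ p : Equiv.Perm (Fin N), ⨆ k : Fin (N + 1), ‖partialSum (fun i => v (p i)) k.val‖ₑ

/-- The Euclidean Steinitz constant `S_2(d)`: supremum of `beta v` over all finite zero-sum
families `v` in the closed Euclidean unit ball of `ℝ^d`. -/
noncomputable def steinitzConst (d : ℕ) : ℝ≥0∞ :=
  ⨆ (N : ℕ) (v : Fin N → EuclideanSpace ℝ (Fin d)) (_ : ∀ i, ‖v i‖ ≤ 1) (_ : ∑ i, v i = 0),
    beta v

/-- `signedConst d` is `σ(d)`: the supremum over all finite sequences in the closed Euclidean unit
ball of the minimum over all sign sequences of the maximal norm of a signed partial sum. -/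
noncomputable def signedConst (d : ℕ) : ℝ≥0∞ :=
  ⨆ (N : ℕ) (v : Fin N → EuclideanSpace ℝ (Fin d)) (_ : ∀ i, ‖v i‖ ≤ 1),
    ⨅ ε : Fin N → ℤˣ, ⨆ k : Fin (N + 1), ‖partialSum (fun i => ((ε i : ℤ) : ℝ) • v i) k.val‖ₑ

end Vale.Agent.P262
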